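import Crest.Agent.N337.I.Slow
import Crest.Agent.N337.Ld.Jnk

/-!
# Row 337 (helper79): few living cells (`Ld.AlvH`)
-/

set_option autoImplicit false
set_option linter.unusedSectionVars false

namespace Crest.Agent.N337.I

open Finset Crest.Agent.N337.Free

variable {L n T : ℕ} [NeZero L] [NeZero T]

/-- **`AlvH`** on the concrete rung. -/
theorem alvH (ex ey : Fin T → Tor 3 L × Fin n) (P : Num) (z0 : Tor 3 L) (N m : ℕ) :
    Ld.AlvH (ins ex ey P z0) N m (N * (2 * ((sys n T P z0).loc m + 1) + 1) ^ 3) := by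
  rintro s ⟨S, h1, h2⟩
  refine ⟨S.biUnion fun y => univ.filter fun x => tdist y.1 x ≤ (sys n T P z0).loc m + 1,
    (card_biUnion_le_card_mul _ _ _ fun y _ => card_ball_le y.1 _).trans
      (Nat.mul_le_mul_right _ h1), fun x hx z hz z' hz' => mem_kil.2 fun t c => ?_⟩
  by_contra h
  refine hx (mem_biUnion.2 ⟨_, h2 _ h, mem_filter.2 ⟨mem_univ _, ?_⟩⟩)
  have a1 := tdist_triangle x z z'
  have a2 : tdist x z ≤ (sys n T P z0).loc m := hz
  rw [tdist_comm]
  exact a1.trans (add_le_add a2 hz')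

end Crest.Agent.N337.I
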