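import Crest.Agent.N337.Rg.Defs
import Crest.Agent.N337.Gas.Loop
import Crest.Agent.N337.KV.Word
import Crest.Agent.N337.Free.Tor

/-!
# Row 337 (helper79): the concrete rung system on the torus

An environment is a pair (points, change points); `κ` = killed sites.  The leaves are read on
space-time units `(x, i)` = ball round `x` times the windows `i, …, i + l - 1`.
-/

set_option autoImplicit false
set_option linter.unusedSectionVars false

namespace Crest.Agent.N337.I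

open Finset Crest.Agent.N337.Free Crest.Agent.N337.KV Crest.Agent.N337.Gas

/-- space-time points. -/
abbrev V (L n T : ℕ) : Type := Fin T × (Tor 3 L × Fin n)
/-- environments: points and change points. -/
abbrev Ev (L n T : ℕ) : Type := Finset (V L n T) × Finset (V L n T)

instance instDecLp {T : ℕ} {Λ : Type} [DecidableEq Λ] : DecidableEq (Lp T Λ) := inferInstance

/-- numbers of the leaves: `D` steps per window, `l` windows per unit. -/
structure Lf where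
  D : ℕ
  l : ℕ
  n1 : ℕ
  j1 : ℕ
  l1 : ℕ
  A : ℕ
  r0 : ℕ
  r3 : ℕ
  /-- the radius of the cluster leaf decreases by `dl` in each of `sm` half rungs -/
  sm : ℕ
  dl : ℕ
  hA : r3 + sm * dl + A ≤ r0
  hl : l ≤ sm * l1

/-- radius of the cluster leaf at the half rung `s`. -/
def Lf.rr (F : Lf) (s : ℕ) : ℕ := F.r3 + (F.sm - s) * F.dl

lemma Lf.rr_anti (F : Lf) {s s' : ℕ} (h : s ≤ s') : F.rr s' ≤ F.rr s :=
  Nat.add_le_add_left (Nat.mul_le_mul_right _ (by omega)) _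

lemma Lf.rr_le (F : Lf) (s : ℕ) : F.rr s + F.A ≤ F.r0 :=
  (Nat.add_le_add_right (F.rr_anti (Nat.zero_le s)) _).trans F.hA

lemma Lf.le_rr (F : Lf) (s : ℕ) : F.r3 ≤ F.rr s := Nat.le_add_right _ _

lemma Lf.rr_succ (F : Lf) {s : ℕ} (h : s < F.sm) : F.rr s = F.rr (s + 1) + F.dl := by
  rw [Lf.rr, Lf.rr, show F.sm - s = F.sm - (s + 1) + 1 by omega]; ring

/-- all numbers. -/
structure Num extends Lf where
  ρ : ℕ → ℕ
  rad : ℕ → ℕ → ℕ
  sep : ℕ → ℕ
  H : ℕ → ℕ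
  Sx : ℕ → ℕ
  nl : ℕ → ℕ → ℕ
  a : ℕ
  a1 : ℕ
  r : ℕ
  k0 : ℕ
  tm : ℕ
  Lam : ℕ
  N : ℕ
  /-- side of the grid cubes -/
  σ : ℕ → ℕ
  /-- period of the colours -/
  q : ℕ → ℕ
  rad_step : ∀ m t, (Lam + 1) ^ 3 * rad m t ≤ rad m (t + 1)
  sep_le : ∀ m, sep m ≤ rad m 0
  Sx_ge : ∀ m, (Lam + 1) ^ 2 * rad m tm ≤ Sx m
  a_ge : 3 * a1 + r ≤ a
  N_ge : (tm + 1) * a + 2 * a1 ≤ N
  k0_pos : 1 ≤ k0
  r0_le : r0 ≤ ρ 0
  σ_pos : ∀ m, 0 < σ m

variable {L n T : ℕ} [NeZero L] [NeZero T]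

/-- invisible sites. -/
def dead (Z : Finset (Tor 3 L)) (z : Tor 3 L) : Prop := ∀ z', tdist z z' ≤ 1 → z' ∈ Z

open Classical in
/-- visible points. -/
noncomputable def vis (Z : Finset (Tor 3 L)) (R : Finset (V L n T)) : Finset (V L n T) :=
  R.filter fun v => ¬ dead Z v.2.1

/-- number of points of `R` at step `k` within `r` of `z`. -/
noncomputable def cnt (R : Finset (V L n T)) (k : ℕ) (z : Tor 3 L) (r : ℕ) : ℕ :=
  (univ.filter fun y => (tm T k, y) ∈ R ∧ tdist z y.1 ≤ r).card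

/-- number of points of `X` in window `i` within `r` of `z`. -/
noncomputable def chg (D : ℕ) (X : Finset (V L n T)) (i : ℕ) (z : Tor 3 L) (r : ℕ) : ℕ :=
  ∑ k ∈ Ico (i * D) ((i + 1) * D), cnt X k z r

/-- window `i` contains a cluster of six points with centre within `r` of `x`. -/
def Cl (F : Lf) (r : ℕ) (R : Finset (V L n T)) (x : Tor 3 L) (i : ℕ) : Prop :=
  ∃ k ∈ Ico (i * F.D) ((i + 1) * F.D), ∃ z, tdist x z ≤ r ∧ 6 ≤ cnt R k z F.A

open Classical in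
/-- the unit `(x, i)` has rung `≤ t`. -/
structure Gu (F : Lf) (t : ℕ) (E : Ev L n T) (Z : Finset (Tor 3 L)) (x : Tor 3 L) (i : ℕ) :
    Prop where
  c1 : ∀ k ∈ Ico (i * F.D) ((i + F.l) * F.D), cnt (vis Z E.1) k x F.r0 ≤ 2 * t * F.n1
  c2 : ∀ i' ∈ Ico i (i + F.l), chg F.D (vis Z E.2) i' x F.r0 ≤ 2 * t * F.j1
  c3 : ((Ico i (i + F.l)).filter (Cl F (F.rr (2 * t)) (vis Z E.1) x)).card ≤ 2 * t * F.l1

/-- the base cell at `x` has rung `≤ t`. -/
def G0 (F : Lf) (t : ℕ) (E : Ev L n T) (Z : Finset (Tor 3 L)) (x : Tor 3 L) : Prop :=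
  ∀ i, Gu F t E Z x i

/-- leaf J1: many points of the party at one step. -/
def J1 (F : Lf) (C : Ev L n T) (Z : Finset (Tor 3 L)) (x : Tor 3 L) : Prop :=
  ∃ k, F.n1 < cnt (vis Z C.1) k x F.r0
/-- leaf J2: many new change points in one window. -/
def J2 (F : Lf) (C E : Ev L n T) (Z : Finset (Tor 3 L)) (x : Tor 3 L) : Prop :=
  ∃ i, F.j1 < chg F.D (vis Z (C.2 \ E.2)) i x F.r0
open Classical in
/-- leaf J3: many new cluster windows in one unit. -/
def J3 (F : Lf) (C E : Ev L n T) (Z : Finset (Tor 3 L)) (x : Tor 3 L) : Prop :=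
  ∃ s < F.sm, ∃ i, F.l1 < ((Ico i (i + F.l)).filter fun i' =>
    Cl F (F.rr (s + 1)) (vis Z (E.1 ∪ C.1)) x i' ∧ ¬ Cl F (F.rr s) (vis Z E.1) x i').card
/-- the leaves of the party `C` relative to `E`. -/
def W0 (F : Lf) (C E : Ev L n T) (Z : Finset (Tor 3 L)) (x : Tor 3 L) : Prop :=
  J1 F C Z x ∨ J2 F C E Z x ∨ J3 F C E Z x

/-- the party has a point or a change point at `z`. -/
def hit (B : Ev L n T) (z : Tor 3 L) : Prop := ∃ v, (v ∈ B.1 ∨ v ∈ B.2) ∧ v.2.1 = z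

/-- the party touches the unit `(x, i)`. -/
def Tch (F : Lf) (B : Ev L n T) (x : Tor 3 L) (i : ℕ) : Prop :=
  ∃ k ∈ Ico (i * F.D) ((i + F.l) * F.D), ∃ y, ((tm T k, y) ∈ B.1 ∨ (tm T k, y) ∈ B.2) ∧
    tdist x y.1 ≤ F.r0

/-- index of the grid cube (side `σ`, corner `z0`). -/
def idx (z0 : Tor 3 L) (σ : ℕ) (u : Tor 3 L) : Fin 3 → ℕ := fun a => (u a - z0 a).val / σ

open Classical in
/-- number of killed grid cubes within `σ / 2` of `y`. -/
noncomputable def oct (z0 : Tor 3 L) (σ : ℕ) (Z : Finset (Tor 3 L)) (y : Tor 3 L) : ℕ :=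
  ((univ.filter fun u => 2 * tdist y u ≤ σ ∧ ∀ u', idx z0 σ u' = idx z0 σ u → u' ∈ Z).image
    (idx z0 σ)).card

/-- colour of one coordinate. -/
def c1 (q : ℕ) (c : ZMod L) : ℕ := 2 * (c.val % q) + if 2 * c.val < L then 0 else 1
/-- colours. -/
def col (q : ℕ) (y : Tor 3 L) : ℕ := c1 q (y 0) + 2 * q * (c1 q (y 1) + 2 * q * c1 q (y 2))

section lem
variable {F : Lf} {t t' i k r D : ℕ} {E E' B C C' w : Ev L n T} {Z Z' : Finset (Tor 3 L)}
  {x z : Tor 3 L} {R R' X : Finset (V L n T)} {v : V L n T}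

lemma mem_vis : v ∈ vis Z R ↔ v ∈ R ∧ ¬ dead Z v.2.1 := by classical unfold vis; exact mem_filter

lemma dead.mono (h : dead Z z) (hZ : Z ⊆ Z') : dead Z' z := fun z' hz => hZ (h z' hz)

lemma dead.mem (h : dead Z z) : z ∈ Z := h z (by rw [tdist_self]; omega)

lemma vis_mono (hR : R' ⊆ R) (hZ : Z ⊆ Z') : vis Z' R' ⊆ vis Z R := fun _ hv =>
  mem_vis.2 ⟨hR (mem_vis.1 hv).1, fun h => (mem_vis.1 hv).2 (h.mono hZ)⟩

lemma vis_sub : vis Z R ⊆ R := fun _ hv => (mem_vis.1 hv).1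

lemma vis_union : vis Z (R ∪ R') = vis Z R ∪ vis Z R' := by
  classical
  unfold vis; exact filter_union _ _ _

/-- comparison of counts on the points that matter. -/
lemma cnt_le {r' : ℕ} {z' : Tor 3 L}
    (h : ∀ y, (tm T k, y) ∈ R' → tdist z' y.1 ≤ r' → (tm T k, y) ∈ R ∧ tdist z y.1 ≤ r) :
    cnt R' k z' r' ≤ cnt R k z r :=
  card_le_card fun y hy => mem_filter.2 ⟨mem_univ _, h y (mem_filter.1 hy).2.1 (mem_filter.1 hy).2.2⟩

lemma cnt_mono (h : R' ⊆ R) : cnt R' k z r ≤ cnt R k z r := cnt_le fun _ h1 h2 => ⟨h h1, h2⟩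

lemma cnt_union : cnt (R ∪ R') k z r ≤ cnt R k z r + cnt R' k z r := by
  refine le_trans (card_le_card fun y hy => ?_) (card_union_le _ _)
  simp only [mem_filter, mem_union, mem_univ, true_and] at hy ⊢
  exact hy.1.imp (⟨·, hy.2⟩) (⟨·, hy.2⟩)

lemma cnt_zero (h : ∀ y, (tm T k, y) ∈ R → r < tdist z y.1) : cnt R k z r = 0 :=
  card_eq_zero.2 (filter_eq_empty_iff.2 fun y _ hy => absurd hy.2 (not_le.2 (h y hy.1)))

lemma chg_mono (h : R' ⊆ R) : chg D R' i z r ≤ chg D R i z r := sum_le_sum fun _ _ => cnt_mono h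

lemma chg_union : chg D (R ∪ R') i z r ≤ chg D R i z r + chg D R' i z r := by
  rw [chg, chg, chg, ← sum_add_distrib]; exact sum_le_sum fun _ _ => cnt_union

lemma Cl.mono {r' : ℕ} (h : Cl F r' R' x i) (hr : r' ≤ r) (hR : R' ⊆ R) : Cl F r R x i := by
  obtain ⟨k, h1, z, h2, h3⟩ := h
  exact ⟨k, h1, z, h2.trans hr, h3.trans (cnt_mono hR)⟩

lemma win_sub {i' l : ℕ} (h : i' ∈ Ico i (i + l)) (hk : k ∈ Ico (i' * D) ((i' + 1) * D)) :
    k ∈ Ico (i * D) ((i + l) * D) := by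
  rw [mem_Ico] at *
  exact ⟨(Nat.mul_le_mul_right D h.1).trans hk.1, hk.2.trans_le (Nat.mul_le_mul_right D h.2)⟩

theorem Gu.mono (h : Gu F t E Z x i) (ht : t ≤ t') (hE : E' ≤ E) (hZ : Z ⊆ Z') :
    Gu F t' E' Z' x i where
  c1 k hk := (cnt_mono (vis_mono hE.1 hZ)).trans ((h.c1 k hk).trans (by gcongr))
  c2 k hk := (chg_mono (vis_mono hE.2 hZ)).trans ((h.c2 k hk).trans (by gcongr))
  c3 := by
    classical
    exact (card_le_card (monotone_filter_right _ fun _ _ hc =>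
      hc.mono (F.rr_anti (by omega)) (vis_mono hE.1 hZ))).trans (h.c3.trans (by gcongr))

/-- **(u2)** a party that does not touch the unit does not change its rung. -/
theorem Gu.loc (h : Gu F t E Z x i) (hB : ¬ Tch F B x i) : Gu F t (E ⊔ B) Z x i := by
  classical
  have key : ∀ k ∈ Ico (i * F.D) ((i + F.l) * F.D), ∀ y, tdist x y.1 ≤ F.r0 →
      (tm T k, y) ∉ B.1 ∧ (tm T k, y) ∉ B.2 := fun k hk y hy =>
    not_or.1 fun h1 => hB ⟨k, hk, y, h1, hy⟩
  refine ⟨fun k hk => le_trans (cnt_le fun y h1 h2 => ⟨?_, h2⟩) (h.c1 k hk),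
    fun i' hi => le_trans (sum_le_sum fun k hk => cnt_le fun y h1 h2 => ⟨?_, h2⟩) (h.c2 i' hi),
    le_trans (card_le_card (monotone_filter_right _ fun i' hi ⟨k, hk, z, h1, h2⟩ =>
      ⟨k, hk, z, h1, h2.trans (cnt_le fun y h3 h4 => ⟨?_, h4⟩)⟩)) h.c3⟩
  · exact mem_vis.2 ⟨(mem_union.1 (mem_vis.1 h1).1).resolve_right (key k hk y h2).1, (mem_vis.1 h1).2⟩
  · exact mem_vis.2 ⟨(mem_union.1 (mem_vis.1 h1).1).resolve_right (key k (win_sub hi hk) y h2).2,
      (mem_vis.1 h1).2⟩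
  · have := tdist_triangle x z y.1
    have := F.rr_le (2 * t)
    exact mem_vis.2 ⟨(mem_union.1 (mem_vis.1 h3).1).resolve_right
      (key k (win_sub hi hk) y (by omega)).1, (mem_vis.1 h3).2⟩

lemma Tch.hit (h : Tch F B x i) : ∃ z, hit B z ∧ tdist x z ≤ F.r0 := by
  obtain ⟨k, -, y, h1, h2⟩ := h
  exact ⟨y.1, ⟨_, h1, rfl⟩, h2⟩

lemma Tch.mono (h : Tch F B x i) (hB : B ≤ C) : Tch F C x i := by
  obtain ⟨k, h0, y, h1, h2⟩ := h
  exact ⟨k, h0, y, h1.imp (hB.1 ·) (hB.2 ·), h2⟩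

theorem gu_dead (h : ∀ z, tdist x z ≤ F.r0 → dead Z z) : Gu F 0 E Z x i := by
  classical
  have key : ∀ (R : Finset (V L n T)) k z r, tdist x z + r ≤ F.r0 → cnt (vis Z R) k z r = 0 :=
    fun R k z r hr => cnt_zero fun y hy => lt_of_not_ge fun h1 => (mem_vis.1 hy).2
      (h y.1 (by have := tdist_triangle x z y.1; omega))
  refine ⟨fun k _ => (key _ k x _ (by rw [tdist_self]; omega)).trans_le (Nat.zero_le _),
    fun i' _ => (sum_eq_zero fun k _ => key _ k x _ (by rw [tdist_self]; omega)).trans_le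
      (Nat.zero_le _), ?_⟩
  rw [filter_eq_empty_iff.2 fun i' _ ⟨k, _, z, h1, h2⟩ => by
    rw [key _ k z _ (by have := F.rr_le (2 * 0); omega)] at h2; omega]
  simp

/-- half steps. -/
structure Gh (F : Lf) (s : ℕ) (E : Ev L n T) (Z : Finset (Tor 3 L)) (x : Tor 3 L) (i : ℕ) :
    Prop where
  c1 : ∀ k ∈ Ico (i * F.D) ((i + F.l) * F.D), cnt (vis Z E.1) k x F.r0 ≤ s * F.n1
  c2 : ∀ i' ∈ Ico i (i + F.l), chg F.D (vis Z E.2) i' x F.r0 ≤ s * F.j1
  c3 : (@filter _ (Cl F (F.rr s) (vis Z E.1) x) (fun _ => Classical.propDecidable _)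
    (Ico i (i + F.l))).card ≤ s * F.l1

lemma Gh.step {s : ℕ} (h : Gh F s E Z x i) (hW : ¬ W0 F C E Z x) : Gh F (s + 1) (E ⊔ C) Z x i := by
  classical
  simp only [W0, J1, J2, J3, not_or, not_exists, not_and, not_lt] at hW
  refine ⟨fun k hk => ?_, fun i' hi => ?_, ?_⟩
  · have := h.c1 k hk
    have := hW.1 k
    have : cnt (vis Z (E ⊔ C).1) k x F.r0 ≤ cnt (vis Z E.1) k x F.r0 + cnt (vis Z C.1) k x F.r0 := by
      refine le_trans (le_of_eq ?_) cnt_union
      rw [← vis_union]; rfl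
    rw [add_mul]; omega
  · have := h.c2 i' hi
    have := hW.2.1 i'
    have : chg F.D (vis Z (E ⊔ C).2) i' x F.r0 ≤
        chg F.D (vis Z E.2) i' x F.r0 + chg F.D (vis Z (C.2 \ E.2)) i' x F.r0 := by
      refine le_trans (le_of_eq ?_) chg_union
      rw [← vis_union, union_sdiff_self_eq_union]; rfl
    rw [add_mul]; omega
  · have h1 := h.c3
    rcases le_or_gt F.sm s with hs | hs
    · refine (card_filter_le _ _).trans ?_
      rw [Nat.card_Ico, Nat.add_sub_cancel_left]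
      exact F.hl.trans (Nat.mul_le_mul_right _ (by omega))
    have h2 := hW.2.2 s hs i
    refine le_trans (card_le_card fun i' hi => ?_) ((card_union_le _ _).trans
      ((add_le_add h1 h2).trans (by rw [add_mul]; omega)))
    simp only [mem_union, mem_filter] at hi ⊢
    by_cases h3 : Cl F (F.rr s) (vis Z E.1) x i'
    · exact .inl ⟨hi.1, h3⟩
    · exact .inr ⟨hi.1, hi.2, h3⟩

/-- two leaf units make one rung. -/
theorem Gu.step2 (h : Gu F t E Z x i) (h1 : ¬ W0 F w E Z x) (h2 : ¬ W0 F C (E ⊔ w) Z x) :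
    Gu F (t + 1) (E ⊔ w ⊔ C) Z x i :=
  have := ((⟨h.c1, h.c2, h.c3⟩ : Gh F (2 * t) E Z x i).step h1).step h2
  ⟨this.c1, this.c2, this.c3⟩

/-- **(u1)** -/
theorem Gu.step (h : Gu F t E Z x i) (h1 : ¬ W0 F C E Z x) : Gu F (t + 1) (E ⊔ C) Z x i :=
  have := (⟨h.c1, h.c2, h.c3⟩ : Gh F (2 * t) E Z x i).step h1
  ⟨fun k hk => (this.c1 k hk).trans (by gcongr; omega),
    fun k hk => (this.c2 k hk).trans (by gcongr; omega), by
      classical
      exact (card_le_card (monotone_filter_right _ fun _ _ hc =>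
        hc.mono (F.rr_anti (by omega)) Subset.rfl)).trans (this.c3.trans (by gcongr; omega))⟩

theorem W0.mono (h : W0 F C E Z x) (hC : C ≤ C') : W0 F C' E Z x := by
  classical
  rcases h with ⟨k, h⟩ | ⟨k, h⟩ | ⟨s, hs, k, h⟩
  · exact .inl ⟨k, h.trans_le (cnt_mono (vis_mono hC.1 Subset.rfl))⟩
  · exact .inr (.inl ⟨k, h.trans_le
      (chg_mono (vis_mono (sdiff_subset_sdiff hC.2 Subset.rfl) Subset.rfl))⟩)
  · exact .inr (.inr ⟨s, hs, k, h.trans_le (card_le_card (monotone_filter_right _ fun _ _ hc =>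
      ⟨hc.1.mono le_rfl (vis_mono (union_subset_union_right hC.1) Subset.rfl), hc.2⟩))⟩)

end lem

/-! ### octants and colours -/

section grid
variable {z0 y y' u : Tor 3 L} {σ q : ℕ} {Z Z' : Finset (Tor 3 L)}

lemma oct_mono (h : Z ⊆ Z') : oct z0 σ Z y ≤ oct z0 σ Z' y := by
  classical
  exact card_le_card (image_subset_image (monotone_filter_right _ fun u _ hu =>
    ⟨hu.1, fun u' h' => h (hu.2 u' h')⟩))

lemma idx_mem (hσ : 0 < σ) (h : 2 * tdist y u ≤ σ) (a : Fin 3) :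
    idx z0 σ u a ∈ ({0, (y a - (σ / 2 : ℕ) - z0 a).val / σ,
      (y a - (σ / 2 : ℕ) - z0 a).val / σ + 1} : Finset ℕ) := by
  have h1 := le_tdist y u a
  obtain ⟨e, he, h2⟩ : ∃ e : ℕ, e ≤ σ ∧ u a - z0 a = (y a - (σ / 2 : ℕ) - z0 a) + e := by
    refine ⟨((u a - y a).valMinAbs + (σ / 2 : ℕ)).toNat, by omega, ?_⟩
    rw [← Int.cast_natCast (R := ZMod L) (Int.toNat _), Int.toNat_of_nonneg (by omega)]
    rw [Int.cast_add, ZMod.coe_valMinAbs, Int.cast_natCast]; ring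
  set c := y a - (σ / 2 : ℕ) - z0 a
  have h3 : (u a - z0 a).val = (c.val + e) % L := by
    rw [h2, ← ZMod.val_natCast]; push_cast; rw [ZMod.natCast_zmod_val]
  have h4 := ZMod.val_lt c
  simp only [idx, h3, mem_insert, mem_singleton]
  rcases lt_or_ge (c.val + e) L with h5 | h5
  · rw [Nat.mod_eq_of_lt h5]
    have a1 : c.val / σ ≤ (c.val + e) / σ := Nat.div_le_div_right (by omega)
    have a2 : (c.val + e) / σ ≤ (c.val + σ) / σ := Nat.div_le_div_right (by omega)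
    rw [Nat.add_div_right _ hσ] at a2
    omega
  · refine .inl (Nat.div_eq_of_lt ?_)
    rw [Nat.mod_eq_sub_mod h5]
    exact (Nat.mod_le _ _).trans_lt (by omega)

lemma oct_le (hσ : 0 < σ) : oct z0 σ Z y ≤ 27 := by
  classical
  refine le_trans (card_le_card (t := Fintype.piFinset fun a => ({0,
    (y a - (σ / 2 : ℕ) - z0 a).val / σ, (y a - (σ / 2 : ℕ) - z0 a).val / σ + 1} : Finset ℕ))
    fun j hj => ?_) ?_
  · obtain ⟨u, hu, rfl⟩ := mem_image.1 hj
    exact Fintype.mem_piFinset.2 (idx_mem hσ (mem_filter.1 hu).2.1)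
  · rw [Fintype.card_piFinset]
    exact (prod_le_pow_card _ _ 3 fun a _ => card_le_three).trans (by simp)

/-- a newly killed cube near `y` is seen by `oct`. -/
theorem oct_lt (hZ : Z ⊆ Z') (h : 2 * tdist y u ≤ σ) (hu : u ∉ Z)
    (hu' : ∀ u', idx z0 σ u' = idx z0 σ u → u' ∈ Z') : oct z0 σ Z y < oct z0 σ Z' y := by
  classical
  refine card_lt_card ((ssubset_iff_of_subset (image_subset_image (monotone_filter_right _
    fun u _ hu => ⟨hu.1, fun u' h' => hZ (hu.2 u' h')⟩))).2 ⟨idx z0 σ u,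
    mem_image_of_mem _ (mem_filter.2 ⟨mem_univ _, h, hu'⟩), fun h1 => ?_⟩)
  obtain ⟨u', h2, h3⟩ := mem_image.1 h1
  exact hu ((mem_filter.1 h2).2.2 u h3.symm)

/-- unions of cubes of side `σ'` are unions of cubes of side `σ ∣ σ'`. -/
lemma idx_dvd {σ' : ℕ} (h : σ ∣ σ') {u' : Tor 3 L} (e : idx z0 σ u' = idx z0 σ u) :
    idx z0 σ' u' = idx z0 σ' u := by
  obtain ⟨c, rfl⟩ := h
  funext a
  have := congrFun e a
  simp only [idx] at this ⊢
  rw [← Nat.div_div_eq_div_mul, ← Nat.div_div_eq_div_mul, this]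

lemma c1_lt (hq : 0 < q) (c : ZMod L) : c1 q c < 2 * q := by
  have := Nat.mod_lt c.val hq
  unfold c1; split_ifs <;> omega

lemma col_lt (hq : 0 < q) (y : Tor 3 L) : col q y < (2 * q) ^ 3 := by
  have h0 := c1_lt hq (y 0)
  have h1 := c1_lt hq (y 1)
  have h2 := c1_lt hq (y 2)
  unfold col
  generalize 2 * q = Q at *
  have : c1 q (y 1) + Q * c1 q (y 2) + 1 ≤ Q * Q := by nlinarith
  nlinarith

lemma c1_sep {c c' : ZMod L} (h : c1 q c = c1 q c') (hlt : c'.val < c.val) :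
    q ≤ (c - c').valMinAbs.natAbs := by
  have h1 := ZMod.val_lt c
  have h2 : c.val % q = c'.val % q ∧ 2 * (c.val - c'.val) ≤ L := by
    unfold c1 at h; split_ifs at h <;> omega
  have h3 : c - c' = ((c.val - c'.val : ℕ) : ZMod L) := by
    rw [Nat.cast_sub hlt.le, ZMod.natCast_zmod_val, ZMod.natCast_zmod_val]
  rw [h3, ZMod.valMinAbs_natCast_of_le_half (by omega), Int.natAbs_natCast]
  exact Nat.le_of_dvd (by omega) ((Nat.modEq_iff_dvd' hlt.le).1 h2.1.symm)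

/-- sites of the same colour are far apart. -/
theorem col_sep (hq : 0 < q) (h : col q y = col q y') (hne : y ≠ y') : q ≤ tdist y y' := by
  have key : ∀ {a b a' b' : ℕ}, a < 2 * q → a' < 2 * q → a + 2 * q * b = a' + 2 * q * b' →
      a = a' ∧ b = b' := fun {a b a' b'} h1 h2 h3 => by
    have h4 := congrArg (· % (2 * q)) h3
    simp only [Nat.add_mul_mod_self_left, Nat.mod_eq_of_lt h1, Nat.mod_eq_of_lt h2] at h4
    exact ⟨h4, Nat.eq_of_mul_eq_mul_left (by omega : 0 < 2 * q) (by omega)⟩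
  have h0 := key (c1_lt hq _) (c1_lt hq _) h
  have h1 := key (c1_lt hq _) (c1_lt hq _) h0.2
  have h2 : ∀ a, c1 q (y a) = c1 q (y' a) := fun a => by
    fin_cases a; exacts [h0.1, h1.1, h1.2]
  obtain ⟨a, ha⟩ := Function.ne_iff.1 hne
  rcases lt_or_gt_of_ne (fun e => ha (ZMod.val_injective L e)) with h3 | h3
  · exact (c1_sep (h2 a).symm h3).trans (le_tdist y y' a)
  · rw [tdist_comm]; exact (c1_sep (h2 a) h3).trans (le_tdist y' y a)

end grid

/-- **the rung system** (`z0` = corner of the grid). -/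
noncomputable def sys (n T : ℕ) [NeZero T] (P : Num) (z0 : Tor 3 L) :
    Rg.Sys (Tor 3 L) (Ev L n T) (Finset (Tor 3 L)) where
  d := tdist
  d_self := tdist_self
  d_comm := tdist_comm
  d_tri := tdist_triangle
  ρ := P.ρ
  rad := P.rad
  sep := P.sep
  H := P.H
  Sx := P.Sx
  nl := P.nl
  a := P.a
  a1 := P.a1
  r := P.r
  k0 := P.k0
  oc := 27
  tm := P.tm
  Lam := P.Lam
  N := P.N
  rad_step := P.rad_step
  sep_le := P.sep_le
  Sx_ge := P.Sx_ge
  a_ge := P.a_ge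
  N_ge := P.N_ge
  k0_pos := P.k0_pos
  col m := col (P.q m)
  oct m := oct z0 (P.σ m)
  oct_mono _ _ _ _ h := oct_mono h
  oct_le m _ _ := oct_le (P.σ_pos m)
  hit := hit
  hit_mono h := fun ⟨v, h1, h2⟩ => ⟨v, h1.imp (h.1 ·) (h.2 ·), h2⟩
  dead := dead
  G0 := G0 P.toLf
  G0_mono ht hE hZ h i := (h i).mono ht hE hZ
  G0_loc hB h i := (h i).loc fun h1 => by
    obtain ⟨z, h2, h3⟩ := h1.hit
    exact absurd (h3.trans P.r0_le) (not_le.2 (hB z h2))
  G0_dead h _ := gu_dead fun z hz => h z (hz.trans P.r0_le)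
  W0 := W0 P.toLf
  W0_mono h h' := h'.mono h
  G0_step h h' i := (h' i).step h
  G0_step2 h1 h2 h i := (h i).step2 h1 h2

/-! ### the environment of a family of loops -/

section loops
variable (ex ey : Fin T → Tor 3 L × Fin n)

/-- both ends of the active steps of a family. -/
def act (A : Finset (Lp T (Tor 3 L × Fin n))) : Finset (V L n T) :=
  univ.filter fun v => cn A v.1 = true ∧ ex v.1 ≠ ey v.1 ∧ (v.2 = ex v.1 ∨ v.2 = ey v.1)

/-- the environment of a family of loops. -/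
def ev (A : Finset (Lp T (Tor 3 L × Fin n))) : Ev L n T := (pts A, act ex ey A)

/-- the changes of the point set `R` for the coins `p` are recorded in `X`. -/
structure Rp (p : Fin T → ℝ) (R X : Finset (V L n T)) : Prop where
  c1 : ∀ s y, ¬ ((s, y) ∈ R ↔ (s + 1, y) ∈ R) → (s, y) ∈ X
  c2 : ∀ s y, (y = ex s ∨ y = ey s) → ex s ≠ ey s → p s ≠ 0 → tch ex ey R s → (s, y) ∈ X

variable {ex ey} {A B : Finset (Lp T (Tor 3 L × Fin n))}

lemma mem_act {s : Fin T} {y : Tor 3 L × Fin n} :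
    (s, y) ∈ act ex ey A ↔ (∃ g ∈ A, g.1 s = true) ∧ ex s ≠ ey s ∧ (y = ex s ∨ y = ey s) := by
  simp only [act, cn, mem_filter, mem_univ, true_and, decide_eq_true_eq]

lemma ev_union (A B : Finset (Lp T (Tor 3 L × Fin n))) :
    ev ex ey (A ∪ B) = ev ex ey A ⊔ ev ex ey B := by
  refine Prod.ext (pts_union A B) (Finset.ext fun ⟨s, y⟩ => ?_)
  show _ ∈ act ex ey _ ↔ _ ∈ act ex ey A ∪ act ex ey B
  simp only [mem_union, mem_act, or_and_right, exists_or]

lemma ev_mono (h : A ⊆ B) : ev ex ey A ≤ ev ex ey B := by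
  rw [← union_eq_right.2 h, ev_union]; exact le_sup_left

lemma ev_empty : ev ex ey (∅ : Finset (Lp T (Tor 3 L × Fin n))) = ⊥ :=
  Prod.ext rfl (Finset.ext fun ⟨s, y⟩ => by simp [ev, mem_act])

end loops

end Crest.Agent.N337.I
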