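import Crest.Agent.N337.I.Defs
import Crest.Agent.N337.L4.Ret2

/-!
# Row 337 (helper79): environments of point sets, killed sites, periodicity, grid slices, covers
-/

set_option autoImplicit false
set_option linter.unusedSectionVars false

namespace Crest.Agent.N337.I

open Finset Equiv Crest.Agent.N337.Free Crest.Agent.N337.KV Crest.Agent.N337.Gas
  Crest.Agent.N337.Rep

variable {L n T : ℕ} [NeZero L] [NeZero T]

/-- the sites all of whose points are killed. -/
def kil (Zp : Finset (V L n T)) : Finset (Tor 3 L) := univ.filter fun z => ∀ s c, (s, (z, c)) ∈ Zp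

lemma mem_kil {Zp : Finset (V L n T)} {z : Tor 3 L} : z ∈ kil Zp ↔ ∀ s c, (s, (z, c)) ∈ Zp := by
  simp only [kil, mem_filter, mem_univ, true_and]

lemma kil_mono {Zp Zp' : Finset (V L n T)} (h : Zp ⊆ Zp') : kil Zp ⊆ kil Zp' :=
  fun _ hz => mem_kil.2 fun s c => h (mem_kil.1 hz s c)

lemma mem_of_kil {Zp : Finset (V L n T)} {v : V L n T} (h : v.2.1 ∈ kil Zp) : v ∈ Zp :=
  mem_kil.1 h v.1 v.2.2

lemma not_dead {Zp : Finset (V L n T)} {v : V L n T} (h : v ∉ Zp) : ¬ dead (kil Zp) v.2.1 :=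
  fun h' => h (mem_of_kil h'.mem)

/-! ### point sets with coins -/

section pt
variable (ex ey : Fin T → Tor 3 L × Fin n)

/-- both ends of the active steps that touch `O`. -/
def acp (ξ : Fin T → Bool) (O : Finset (V L n T)) : Finset (V L n T) :=
  univ.filter fun v => ξ v.1 = true ∧ ex v.1 ≠ ey v.1 ∧ tch ex ey O v.1 ∧
    (v.2 = ex v.1 ∨ v.2 = ey v.1)

/-- the environment of a point set. -/
def evp (ξ : Fin T → Bool) (O : Finset (V L n T)) : Ev L n T := (O, acp ex ey ξ O)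

/-- the changes at open ends. -/
def opn (ξ : Fin T → Bool) (O : Finset (V L n T)) : Finset (V L n T) :=
  (univ.filter fun v => ¬ (v ∈ O ↔ (v.1 + 1, v.2) ∈ O)) \ acp ex ey ξ O

variable {ex ey} {ξ ξ' : Fin T → Bool} {O O' R X : Finset (V L n T)} {s : Fin T}
  {y : Tor 3 L × Fin n} {A : Finset (Lp T (Tor 3 L × Fin n))} {p : Fin T → ℝ}

lemma mem_acp : (s, y) ∈ acp ex ey ξ O ↔ ξ s = true ∧ ex s ≠ ey s ∧ tch ex ey O s ∧
    (y = ex s ∨ y = ey s) := by simp only [acp, mem_filter, mem_univ, true_and]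

lemma mem_opn : (s, y) ∈ opn ex ey ξ O ↔
    ¬ ((s, y) ∈ O ↔ (s + 1, y) ∈ O) ∧ (s, y) ∉ acp ex ey ξ O := by
  simp only [opn, mem_sdiff, mem_filter, mem_univ, true_and]

lemma tch_union' : tch ex ey (O ∪ O') s ↔ tch ex ey O s ∨ tch ex ey O' s := by
  simp only [tch, mem_union]; tauto

lemma evp_union (ξ : Fin T → Bool) (O O' : Finset (V L n T)) :
    evp ex ey ξ (O ∪ O') = evp ex ey ξ O ⊔ evp ex ey ξ O' := by
  refine Prod.ext rfl (Finset.ext fun ⟨s, y⟩ => ?_)
  show _ ∈ acp ex ey ξ _ ↔ _ ∈ acp ex ey ξ O ∪ acp ex ey ξ O'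
  simp only [mem_union, mem_acp, tch_union']; tauto

lemma evp_mono (h : O ⊆ O') : evp ex ey ξ O ≤ evp ex ey ξ O' := by
  rw [← union_eq_right.2 h, evp_union]; exact le_sup_left

lemma evp_empty : evp ex ey ξ ∅ = ⊥ :=
  Prod.ext rfl (Finset.ext fun ⟨s, y⟩ => by simp [evp, mem_acp, tch])

/-- only the coins that touch `O` matter. -/
lemma evp_congr (h : ∀ s, tch ex ey O s → ex s ≠ ey s → ξ' s = ξ s) :
    evp ex ey ξ' O = evp ex ey ξ O := by
  refine Prod.ext rfl (Finset.ext fun ⟨s, y⟩ => ?_)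
  show _ ∈ acp ex ey ξ' _ ↔ _ ∈ acp ex ey ξ O
  simp only [mem_acp]
  exact ⟨fun k => ⟨h s k.2.2.1 k.2.1 ▸ k.1, k.2⟩, fun k => ⟨(h s k.2.2.1 k.2.1).trans k.1, k.2⟩⟩

/-- path locality. -/
lemma evp_loc (h : ∀ v ∈ O, Sg ex ey ξ' v = Sg ex ey ξ v) : evp ex ey ξ' O = evp ex ey ξ O := by
  refine evp_congr fun s hs hne => ?_
  by_contra hc
  have hne' := hne.symm
  rcases hs with k | k <;> have := congrArg Prod.snd (h _ k) <;> revert this hc <;>
    cases h1 : ξ s <;> cases h2 : ξ' s <;> simp [Sg_apply, sg, h1, h2, hne, hne']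

lemma ev_eq (hA : A ⊆ Gas.L ex ey ξ) : ev ex ey A = evp ex ey ξ (pts A) := by
  refine Prod.ext rfl (Finset.ext fun ⟨s, y⟩ => ?_)
  show _ ∈ act ex ey A ↔ _ ∈ acp ex ey ξ _
  simp only [act, mem_filter, mem_univ, true_and, mem_acp, cn_eq hA]
  split_ifs with h <;> simp [h]

/-- a point that is not an end of an active step stays. -/
lemma Sg_stay (h : ¬ (ξ s = true ∧ ex s ≠ ey s ∧ (y = ex s ∨ y = ey s))) :
    Sg ex ey ξ (s, y) = (s + 1, y) := by
  rw [Sg_apply, sg]
  split_ifs with h1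
  · by_cases h2 : ex s = ey s
    · rw [h2, swap_self]; rfl
    · rw [swap_apply_of_ne_of_ne (fun e => h ⟨h1, h2, .inl e⟩) fun e => h ⟨h1, h2, .inr e⟩]
  · rfl

lemma card_opn : (opn ex ey ξ O).card ≤ 2 * Arc.ends ex ey ξ O := by
  classical
  set π := Sg ex ey ξ
  have h1 : (univ.filter fun v => v ∉ O ∧ π v ∈ O).card = (O.filter fun v => π v ∉ O).card := by
    have a1 : (univ.filter fun v => π v ∈ O).card = O.card :=
      card_bij (fun v _ => π v) (fun v hv => (mem_filter.1 hv).2) (fun _ _ _ _ e => π.injective e)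
        fun w hw => ⟨π.symm w, by simpa using hw, by simp⟩
    have a2 := card_filter_add_card_filter_not (s := univ.filter fun v => π v ∈ O) (· ∈ O)
    have a3 := card_filter_add_card_filter_not (s := O) fun v => π v ∈ O
    have a4 : (univ.filter fun v => π v ∈ O).filter (· ∈ O) = O.filter fun v => π v ∈ O := by
      ext v; simp [and_comm]
    have a5 : (univ.filter fun v => π v ∈ O).filter (· ∉ O) =
        univ.filter fun v => v ∉ O ∧ π v ∈ O := by ext v; simp [and_comm]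
    rw [a4, a5, a1, ← a3] at a2
    exact Nat.add_left_cancel a2
  rw [two_mul, Arc.ends]
  nth_rewrite 1 [← h1]
  refine le_trans (card_le_card_of_injOn (fun v => π.symm (v.1 + 1, v.2)) (fun ⟨s, y⟩ hv => ?_)
    fun v _ w _ e => ?_) (card_union_le _ _)
  · obtain ⟨h2, h3⟩ := mem_opn.1 hv
    simp only [coe_union, coe_filter, mem_univ, true_and, Set.mem_union, Set.mem_ofPred_eq]
    rw [apply_symm_apply]
    have key : π.symm (s + 1, y) ∈ O ↔ (s, y) ∈ O := by
      by_cases h4 : ξ s = true ∧ ex s ≠ ey s ∧ (y = ex s ∨ y = ey s)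
      · have h5 : ¬ tch ex ey O s := fun k => h3 (mem_acp.2 ⟨h4.1, h4.2.1, k, h4.2.2⟩)
        have h6 : π.symm (s + 1, y) = (s, swap (ex s) (ey s) y) :=
          π.symm_apply_eq.2 (by simp [π, Sg_apply, sg, h4.1])
        rw [h6]
        simp only [tch, not_or] at h5
        rcases h4.2.2 with rfl | rfl <;> simp [h5.1, h5.2]
      · rw [π.symm_apply_eq.2 (Sg_stay h4).symm]
    tauto
  · have := π.symm.injective e
    exact Prod.ext (add_right_cancel (Prod.mk.inj this).1) (Prod.mk.inj this).2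

lemma opn_inv (h : ∀ v ∈ O, Sg ex ey ξ v ∈ O) : opn ex ey ξ O = ∅ := by
  have : Arc.ends ex ey ξ O = 0 := card_eq_zero.2 (filter_eq_empty_iff.2 fun v hv k => k (h v hv))
  exact card_eq_zero.1 (Nat.le_zero.1 (card_opn.trans (by rw [this])))

lemma pts_inv (hA : A ⊆ Gas.L ex ey ξ) (v : V L n T) : Sg ex ey ξ v ∈ pts A ↔ v ∈ pts A := by
  simp only [mem_pts]
  refine exists_congr fun g => and_congr_right fun hg => ?_
  obtain ⟨w, rfl⟩ := mem_L.1 (hA hg)
  simp only [lp_snd, mem_obv, o_apply]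

lemma Rp.empty (p : Fin T → ℝ) : Rp ex ey p ∅ ∅ :=
  ⟨by simp, fun s _ _ _ _ h => by simp [tch] at h⟩

lemma Rp.mono (h : Rp ex ey p R X) {X' : Finset (V L n T)} (hX : X ⊆ X') : Rp ex ey p R X' :=
  ⟨fun s y k => hX (h.c1 s y k), fun s y a b c d => hX (h.c2 s y a b c d)⟩

/-- pinning a point set. -/
theorem Rp.child (h : Rp ex ey p R X) (O : Finset (V L n T)) (ξ : Fin T → Bool) :
    Rp ex ey (Arc.pin p (Arc.tch ex ey O) ξ) (R ∪ O) (X ∪ acp ex ey ξ O ∪ opn ex ey ξ O) where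
  c1 s y k := by
    simp only [mem_union, mem_opn] at k ⊢
    have := h.c1 s y
    tauto
  c2 s y a b c d := by
    simp only [mem_union]
    by_cases h1 : tch ex ey O s
    · refine .inl (.inr (mem_acp.2 ⟨?_, b, h1, a⟩))
      by_contra h2
      exact c (by rw [Arc.pin, if_pos ((Arc.mem_tch ex ey).2 h1), if_neg h2])
    · rw [Arc.pin, if_neg fun k => h1 ((Arc.mem_tch ex ey).1 k)] at c
      exact .inl (.inl (h.c2 s y a b c ((tch_union'.1 d).resolve_right h1)))

/-- pinning loops. -/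
theorem Rp.loops (h : Rp ex ey p R X) (hA : A ⊆ Gas.L ex ey ξ) :
    Rp ex ey (pin ex ey p A) (R ∪ pts A) (X ∪ act ex ey A) := by
  have h1 := h.child (pts A) ξ
  rw [opn_inv fun v hv => (pts_inv hA v).2 hv, union_empty] at h1
  have e : pin ex ey p A = Arc.pin p (Arc.tch ex ey (pts A)) ξ := by
    funext s
    unfold pin Arc.pin
    rw [cn_eq hA]
    by_cases hs : tch ex ey (pts A) s
    · rw [if_pos hs, if_pos hs, if_pos ((Arc.mem_tch ex ey).2 hs)]
    · rw [if_neg hs, if_neg fun h => hs ((Arc.mem_tch ex ey).1 h)]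
  rw [e, show act ex ey A = acp ex ey ξ (pts A) from congrArg Prod.snd (ev_eq hA)]
  exact h1

theorem rp_ev (p : Fin T → ℝ) (hA : A ⊆ Gas.L ex ey ξ) :
    Rp ex ey (pin ex ey p A) (pts A) (act ex ey A) := by
  simpa using (Rp.empty p).loops hA

/-- what a party hits is within one step of its points. -/
lemma hit_evp (hnn : ∀ s, tdist (ex s).1 (ey s).1 ≤ 1) {z : Tor 3 L} (h : hit (evp ex ey ξ O) z) :
    ∃ v ∈ O, v.2.1 = z ∨ tdist v.2.1 z ≤ 1 := by
  obtain ⟨⟨s, y⟩, h1 | h1, rfl⟩ := h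
  · exact ⟨_, h1, .inl rfl⟩
  · obtain ⟨-, -, h2 | h2, rfl | rfl⟩ := mem_acp.1 h1
    · exact ⟨_, h2, .inl rfl⟩
    · exact ⟨_, h2, .inr (hnn s)⟩
    · exact ⟨_, h2, .inr (tdist_comm _ _ ▸ hnn s)⟩
    · exact ⟨_, h2, .inl rfl⟩

/-- **grid slices**: a point of an invariant set comes from a near point at the start of its window. -/
theorem back (hnn : ∀ s, tdist (ex s).1 (ey s).1 ≤ 1) (hO : ∀ v, Sg ex ey ξ v ∈ O → v ∈ O)
    (hX : ∀ s y, (s, y) ∈ acp ex ey ξ O → (s + 1, y) ∈ O → (s, y) ∈ X) {D i r r' J k : ℕ}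
    {z : Tor 3 L} (hJ : chg D X i z r ≤ J) (hr : r' + J ≤ r) (h1 : i * D ≤ k)
    (h2 : k ≤ (i + 1) * D) (hy : (tm T k, y) ∈ O) (hd : tdist z y.1 ≤ r') :
    ∃ y', (tm T (i * D), y') ∈ O ∧ tdist z y'.1 ≤ r' + J := by
  have key : ∀ j, i * D + j ≤ k → ∃ y', (tm T (k - j), y') ∈ O ∧
      tdist z y'.1 ≤ r' + ∑ u ∈ Ico (k - j) k, cnt X u z r := by
    intro j
    induction j with
    | zero => exact fun _ => ⟨y, hy, by simpa using hd⟩
    | succ j ih =>
      intro hj
      obtain ⟨y', a1, a2⟩ := ih (by omega)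
      have e : k - j = k - (j + 1) + 1 := by omega
      have a3 : ∑ u ∈ Ico (k - j) k, cnt X u z r ≤ J :=
        le_trans (sum_le_sum_of_subset (Ico_subset_Ico (by omega) h2)) hJ
      rw [sum_eq_sum_Ico_succ_bot (by omega : k - (j + 1) < k), ← e]
      rw [e, tm_succ] at a1
      generalize k - (j + 1) = u at *
      by_cases h4 : ξ (tm T u) = true ∧ ex (tm T u) ≠ ey (tm T u) ∧
          (y' = ex (tm T u) ∨ y' = ey (tm T u))
      · have a4 : (tm T u, swap (ex (tm T u)) (ey (tm T u)) y') ∈ O :=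
          hO _ (by simpa [Sg_apply, sg, h4.1] using a1)
        have a5 : 1 ≤ cnt X u z r := by
          refine card_pos.2 ⟨y', mem_filter.2 ⟨mem_univ _, hX _ _ (mem_acp.2
            ⟨h4.1, h4.2.1, ?_, h4.2.2⟩) a1, by omega⟩⟩
          rcases h4.2.2 with rfl | rfl
          · exact .inr (by simpa using a4)
          · exact .inl (by simpa using a4)
        refine ⟨_, a4, (tdist_triangle z y'.1 _).trans ?_⟩
        have a6 : tdist y'.1 (swap (ex (tm T u)) (ey (tm T u)) y').1 ≤ 1 := by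
          rcases h4.2.2 with rfl | rfl
          · simpa using hnn _
          · rw [tdist_comm]; simpa using hnn _
        omega
      · exact ⟨y', hO _ (by rwa [Sg_stay h4]), by omega⟩
  obtain ⟨y', a1, a2⟩ := key (k - i * D) (by omega)
  rw [show k - (k - i * D) = i * D by omega] at a1 a2
  exact ⟨y', a1, a2.trans (Nat.add_le_add_left
    (le_trans (sum_le_sum_of_subset (Ico_subset_Ico le_rfl h2)) hJ) _)⟩

end pt

/-! ### periodicity -/

section per
variable {F : Lf} {B t i k r D : ℕ} {E C : Ev L n T} {Z : Finset (Tor 3 L)} {x z : Tor 3 L}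
  {R X : Finset (V L n T)}

lemma cnt_add (m : ℕ) : cnt R (k + m * T) z r = cnt R k z r := by
  unfold cnt; rw [show tm T (k + m * T) = tm T k from Fin.ext (by simp [tm_val])]

lemma cnt_mod : cnt R (k % T) z r = cnt R k z r := by
  rw [← cnt_add (k := k % T) (k / T), Nat.mod_add_div']

lemma mem_win (hT : T = B * D) (m l : ℕ) :
    k + m * T ∈ Ico ((i + m * B) * D) ((i + m * B + l) * D) ↔ k ∈ Ico (i * D) ((i + l) * D) := by
  simp only [mem_Ico, hT, add_mul, mul_assoc]; omega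

lemma ex_win (hT : T = B * D) {m l : ℕ} (h : k ∈ Ico ((i + m * B) * D) ((i + m * B + l) * D)) :
    ∃ k' ∈ Ico (i * D) ((i + l) * D), k = k' + m * T := by
  have : m * T ≤ k := by have := (mem_Ico.1 h).1; rw [hT]; rw [add_mul, mul_assoc] at this; omega
  exact ⟨k - m * T, (mem_win hT m l).1 (by rwa [Nat.sub_add_cancel this]), by omega⟩

lemma chg_add (hT : T = B * D) (m : ℕ) : chg D X (i + m * B) z r = chg D X i z r := by
  unfold chg
  rw [show (i + m * B) * D = i * D + m * T by rw [hT]; ring,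
    show (i + m * B + 1) * D = (i + 1) * D + m * T by rw [hT]; ring, ← sum_Ico_add']
  exact sum_congr rfl fun k _ => cnt_add m

lemma cl_add (hT : T = B * F.D) (m : ℕ) : Cl F r R x (i + m * B) ↔ Cl F r R x i :=
  ⟨fun ⟨k, h, z, h1, h2⟩ => by
    obtain ⟨k', h3, rfl⟩ := ex_win hT h
    exact ⟨k', h3, z, h1, cnt_add (R := R) m ▸ h2⟩,
   fun ⟨k, h, z, h1, h2⟩ => ⟨k + m * T, (mem_win hT m 1).2 h, z, h1, (cnt_add (R := R) m).symm ▸ h2⟩⟩

lemma card_shift {P : ℕ → Prop} [DecidablePred P] {c l : ℕ} (h : ∀ j, P (j + c) ↔ P j) :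
    ((Ico (i + c) (i + c + l)).filter P).card = ((Ico i (i + l)).filter P).card := by
  rw [card_filter, card_filter, show i + c + l = i + l + c by ring, ← sum_Ico_add']
  exact sum_congr rfl fun j _ => if_congr (h j) rfl rfl

lemma Gu.add (hT : T = B * F.D) (m : ℕ) (h : Gu F t E Z x i) : Gu F t E Z x (i + m * B) := by
  classical
  refine ⟨fun k hk => ?_, fun i' hi => ?_, (card_shift fun j => cl_add hT m).trans_le h.c3⟩
  · obtain ⟨k', h3, rfl⟩ := ex_win hT hk
    rw [cnt_add]; exact h.c1 k' h3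
  · obtain ⟨j, rfl⟩ : ∃ j, i' = j + m * B := ⟨i' - m * B, by have := (mem_Ico.1 hi).1; omega⟩
    rw [chg_add hT]
    exact h.c2 j (by rw [mem_Ico] at hi ⊢; omega)

lemma B_pos (hT : T = B * D) : 0 < B :=
  Nat.pos_of_ne_zero fun h => NeZero.ne T (by rw [hT, h, zero_mul])

lemma D_pos (hT : T = B * D) : 0 < D :=
  Nat.pos_of_ne_zero fun h => NeZero.ne T (by rw [hT, h, mul_zero])

/-- only `B` units matter. -/
theorem G0_iff (hT : T = B * F.D) : G0 F t E Z x ↔ ∀ i : Fin B, Gu F t E Z x i :=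
  ⟨fun h i => h i, fun h i => by
    have := (h ⟨i % B, Nat.mod_lt _ (B_pos hT)⟩).add hT (i / B)
    rwa [Nat.mod_add_div'] at this⟩

theorem J1.fin (h : J1 F C Z x) : ∃ s : Fin T, F.n1 < cnt (vis Z C.1) s x F.r0 := by
  obtain ⟨k, h⟩ := h
  exact ⟨tm T k, by rwa [tm_val, cnt_mod]⟩

theorem J2.fin (hT : T = B * F.D) (h : J2 F C E Z x) :
    ∃ i < B, F.j1 < chg F.D (vis Z (C.2 \ E.2)) i x F.r0 := by
  obtain ⟨i, h⟩ := h
  exact ⟨i % B, Nat.mod_lt _ (B_pos hT), by rwa [← chg_add hT (i / B), Nat.mod_add_div']⟩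

open Classical in
theorem J3.fin (hT : T = B * F.D) (h : J3 F C E Z x) :
    ∃ s < F.sm, ∃ i < B, F.l1 < ((Ico i (i + F.l)).filter fun i' =>
      Cl F (F.rr (s + 1)) (vis Z (E.1 ∪ C.1)) x i' ∧ ¬ Cl F (F.rr s) (vis Z E.1) x i').card := by
  obtain ⟨s, hs, i, h⟩ := h
  refine ⟨s, hs, i % B, Nat.mod_lt _ (B_pos hT), ?_⟩
  rwa [← card_shift (c := i / B * B) fun j => by rw [cl_add hT, cl_add hT], Nat.mod_add_div']

/-- a window sees every point at most once. -/
lemma chg_le_card (hD : D ≤ T) : chg D X i z r ≤ X.card := by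
  unfold chg cnt
  rw [← card_sigma]
  refine card_le_card_of_injOn (fun a => (tm T a.1, a.2)) (fun a ha => ?_) fun a ha b hb e => ?_
  · exact (mem_filter.1 (mem_sigma.1 ha).2).2.1
  · have h1 := mem_Ico.1 (mem_sigma.1 ha).1
    have h2 := mem_Ico.1 (mem_sigma.1 hb).1
    rw [add_mul, one_mul] at h1 h2
    have h3 := (tm_add_inj (T := T) (i * D) (a := a.1 - i * D) (b := b.1 - i * D) (by omega)
      (by omega)).1 (by
        rw [Nat.add_sub_cancel' h1.1, Nat.add_sub_cancel' h2.1]; exact congrArg Prod.fst e)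
    exact Sigma.ext (by omega) (heq_of_eq (congrArg Prod.snd e))

end per

/-- a ball of radius `k (2 r + 1) + r` is covered by `(2 k + 1) ^ 3` balls of radius `r`. -/
theorem cover (x : Tor 3 L) (k r : ℕ) : ∃ P : Finset (Tor 3 L), P.card ≤ (2 * k + 1) ^ 3 ∧
    (∀ p ∈ P, tdist x p ≤ k * (2 * r + 1)) ∧
    ∀ y, tdist x y ≤ k * (2 * r + 1) + r → ∃ p ∈ P, tdist p y ≤ r := by
  have hm : ∀ m : ℤ, ((m : ZMod L).valMinAbs).natAbs ≤ m.natAbs := fun m =>
    ZMod.natAbs_min_of_le_div_two L _ _ (ZMod.coe_valMinAbs _) (ZMod.natAbs_valMinAbs_le _)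
  refine ⟨(Fintype.piFinset fun _ : Fin 3 => Icc (-(k : ℤ)) k).image
    fun e a => x a + ((e a * (2 * r + 1) : ℤ) : ZMod L), card_image_le.trans (le_of_eq ?_),
    fun p hp => ?_, fun y hy => ?_⟩
  · rw [Fintype.card_piFinset, prod_const, Int.card_Icc, card_univ, Fintype.card_fin]
    congr 1; omega
  · obtain ⟨e, he, rfl⟩ := mem_image.1 hp
    refine tdist_le_iff.2 fun a => ?_
    have := mem_Icc.1 (Fintype.mem_piFinset.1 he a)
    rw [add_sub_cancel_left]
    refine (hm _).trans ?_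
    rw [Int.natAbs_mul]
    exact Nat.mul_le_mul (by omega) (by omega)
  · have h1 := tdist_le_iff.1 hy
    have h2 : (0 : ℤ) < 2 * r + 1 := by omega
    refine ⟨_, mem_image_of_mem _ ((Fintype.mem_piFinset (f := fun a =>
      ((y a - x a).valMinAbs + r) / (2 * r + 1))).2 fun a => mem_Icc.2 ⟨?_, ?_⟩),
      tdist_le_iff.2 fun a => ?_⟩
    · refine (Int.le_ediv_iff_mul_le h2).2 ?_
      have : (((y a - x a).valMinAbs.natAbs : ℕ) : ℤ) ≤ k * (2 * r + 1) + r := by
        exact_mod_cast h1 a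
      rw [neg_mul]; omega
    · refine Int.lt_add_one_iff.1 ((Int.ediv_lt_iff_lt_mul h2).2 ?_)
      have : (((y a - x a).valMinAbs.natAbs : ℕ) : ℤ) ≤ k * (2 * r + 1) + r := by
        exact_mod_cast h1 a
      rw [add_mul]; omega
    · have e : y a - (x a + ((((y a - x a).valMinAbs + r) / (2 * r + 1) * (2 * r + 1) : ℤ) :
          ZMod L)) = ((((y a - x a).valMinAbs + r) % (2 * r + 1) - r : ℤ) : ZMod L) := by
        rw [Int.emod_def, mul_comm (2 * (r : ℤ) + 1)]
        generalize ((y a - x a).valMinAbs + r) / (2 * r + 1) * (2 * r + 1) = c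
        rw [Int.cast_sub, Int.cast_sub, Int.cast_add, ZMod.coe_valMinAbs]; ring
      rw [e]
      have a1 := Int.emod_nonneg ((y a - x a).valMinAbs + r) h2.ne'
      have a2 := Int.emod_lt_of_pos ((y a - x a).valMinAbs + r) h2
      exact (hm _).trans (by omega)

end Crest.Agent.N337.I
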