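import Crest.Agent.N337.I.Env
import Crest.Agent.N337.G1.Main
import Crest.Agent.N337.M.Cls

/-!
# Row 337 (helper79): from the rung to the hypotheses of G1 and to slow pins
-/

set_option autoImplicit false
set_option linter.unusedSectionVars false

namespace Crest.Agent.N337.I

open Finset Equiv Crest.Agent.N337.Free Crest.Agent.N337.KV Crest.Agent.N337.Gas
  Crest.Agent.N337.Rep

variable {L n T : ℕ} [NeZero L] [NeZero T]

/-- the killing field seen by G1: zero on the visible points and on the killed sites. -/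
noncomputable def bE (b0 : Fin T → ℝ) (Z : Finset (Tor 3 L)) (R : Finset (V L n T))
    (v : V L n T) : ℝ := if v ∈ vis Z R ∨ v.2.1 ∈ Z then 0 else b0 v.1

variable {ex ey : Fin T → Tor 3 L × Fin n} {p p0 b0 : Fin T → ℝ} {F : Lf} {t i B x0 j : ℕ}
  {E : Ev L n T} {Z : Finset (Tor 3 L)} {R X X0 : Finset (V L n T)} {c x : Tor 3 L}

/-- the visible part of a pinned set is an environment. -/
theorem env_vis (hnn : ∀ s, tdist (ex s).1 (ey s).1 ≤ 1) (hp : ∀ s, ¬ tch ex ey R s → p s = p0 s)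
    (b0 : Fin T → ℝ) (Z : Finset (Tor 3 L)) :
    G1.Env ex ey p p0 (bE b0 Z R) b0 (vis Z R) Z where
  nn s _ := hnn s
  bR _ hv := if_pos (.inl hv)
  bZ _ hv := if_pos (.inr hv)
  bf _ h1 h2 := if_neg (not_or.2 ⟨h1, h2⟩)
  free s h1 h2 := by
    by_cases h : tch ex ey R s
    · refine .inr (h.elim (fun k => ?_) fun k => ?_)
      · have : dead Z (ex s).1 := of_not_not fun a => h1 (mem_vis.2 ⟨k, a⟩)
        exact ⟨this.mem, this _ (hnn s)⟩
      · have : dead Z (ey s).1 := of_not_not fun a => h2 (mem_vis.2 ⟨k, a⟩)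
        exact ⟨this _ (tdist_comm _ _ ▸ hnn s), this.mem⟩
    · exact .inl (hp s h)

theorem le_bE {b : V L n T → ℝ} (h0 : ∀ v, b v ≤ b0 v.1) (hR : ∀ v ∈ R, b v = 0)
    (hZ : ∀ v, v.2.1 ∈ Z → b v = 0) (v : V L n T) : b v ≤ bE b0 Z R v := by
  unfold bE; split_ifs with h
  · exact (h.elim (fun k => hR v (vis_sub k)) (hZ v)).le
  · exact h0 v

theorem bE_mem (h : ∀ s, 0 ≤ b0 s) (v : V L n T) : 0 ≤ bE b0 Z R v ∧ bE b0 Z R v ≤ b0 v.1 := by
  unfold bE; split_ifs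
  exacts [⟨le_rfl, h _⟩, ⟨h _, le_rfl⟩]

lemma Rp.c1v (h : Rp ex ey p R X) {s : Fin T} {y : Tor 3 L × Fin n}
    (k : ¬ ((s, y) ∈ vis Z R ↔ (s + 1, y) ∈ vis Z R)) : (s, y) ∈ vis Z X := by
  simp only [mem_vis] at k ⊢
  exact ⟨h.c1 s y (by tauto), by tauto⟩

lemma Rp.ch (h : Rp ex ey p R X) {s : Fin T} {y : Tor 3 L × Fin n}
    (k : G1.Ch ex ey p (vis Z R) s y) : (s, y) ∈ vis Z X := by
  rcases k with k | ⟨k1, k2, k3, k4⟩
  · exact h.c1v k
  · refine mem_vis.2 ⟨h.c2 s y k1 (fun e => k4 (by rw [e, swap_self]; exact k2)) k3 ?_,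
      (mem_vis.1 k2).2⟩
    have := vis_sub k2
    rcases k1 with rfl | rfl
    exacts [.inl this, .inr this]

lemma l_mem (hl : 1 ≤ F.l) : i ∈ Ico i (i + F.l) := mem_Ico.2 ⟨le_rfl, by omega⟩

lemma G0.cnt_le (h : G0 F t E Z c) (hT : T = B * F.D) (hl : 1 ≤ F.l) (k : ℕ) :
    cnt (vis Z E.1) k c F.r0 ≤ 2 * t * F.n1 :=
  (h (k / F.D)).c1 k (win_sub (l_mem hl) (mem_Ico.2 ⟨Nat.div_mul_le_self _ _,
    by rw [add_mul, one_mul]; exact Nat.lt_div_mul_add (D_pos hT)⟩))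

lemma G0.chg_le (h : G0 F t E Z c) (hl : 1 ≤ F.l) (i : ℕ) :
    chg F.D (vis Z E.2) i c F.r0 ≤ 2 * t * F.j1 := (h i).c2 i (l_mem hl)

lemma G0.chg_le' (h : G0 F t E Z c) (hT : T = B * F.D) (hl : 1 ≤ F.l) (hX : X ⊆ E.2 ∪ X0)
    (h0 : X0.card ≤ x0) (i : ℕ) : chg F.D (vis Z X) i c F.r0 ≤ 2 * t * F.j1 + x0 := by
  refine (chg_mono (vis_mono hX Subset.rfl)).trans ?_
  rw [vis_union]
  refine chg_union.trans (add_le_add (h.chg_le hl i) ((chg_le_card ?_).trans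
    ((card_le_card vis_sub).trans h0)))
  rw [hT]; exact Nat.le_mul_of_pos_left _ (B_pos hT)

/-- **leaves J1, J2 of G1.** -/
theorem G0.leaf (h : G0 F t E Z c) (hT : T = B * F.D) (hl : 1 ≤ F.l) (hp : Rp ex ey p R X)
    (hR : R ⊆ E.1) (hX : X ⊆ E.2 ∪ X0) (h0 : X0.card ≤ x0) {m0 r : ℕ} (hm : 2 * t * F.n1 ≤ m0)
    (hj : m0 + 2 * (2 * t * F.j1 + x0) ≤ j) (hr : tdist c x + r ≤ F.r0) :
    G1.Leaf ex ey p (vis Z R) F.D m0 j r x := by
  classical
  have hd : ∀ y : Tor 3 L, tdist x y ≤ r → tdist c y ≤ F.r0 := fun y hy => by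
    have := tdist_triangle c x y; omega
  have a1 : ∀ k, cnt (vis Z R) k x r ≤ m0 := fun k => le_trans
    (I.cnt_le fun y h1 h2 => ⟨vis_mono hR Subset.rfl h1, hd _ h2⟩) ((h.cnt_le hT hl k).trans hm)
  have a2 := h.chg_le' hT hl hX h0
  refine ⟨fun s => ?_, fun i => ?_, fun i => ?_⟩
  · have := a1 s
    rwa [cnt, tm_fin] at this
  · refine le_trans ?_ ((a2 i).trans (by omega))
    rw [card_filter]
    refine sum_le_sum fun k _ => ?_
    split_ifs with h1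
    · obtain ⟨y, h2, h3⟩ := h1
      exact card_pos.2 ⟨y, mem_filter.2 ⟨mem_univ _, hp.ch h3, hd _ h2⟩⟩
    · exact Nat.zero_le _
  · refine le_trans (card_le_card (t := (univ.filter fun y => (tm T (i * F.D), y) ∈ vis Z R ∧
      tdist x y.1 ≤ r) ∪ (Ico (i * F.D) ((i + 2) * F.D)).biUnion fun k => univ.filter fun y =>
        (tm T k, y) ∈ vis Z X ∧ tdist c y.1 ≤ F.r0) fun y hy => ?_) ((card_union_le _ _).trans ?_)
    · simp only [mem_union, mem_filter, mem_univ, true_and, mem_biUnion] at hy ⊢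
      obtain ⟨h1, k, hk, h2⟩ := hy
      by_contra hc
      simp only [not_or, not_and, not_exists] at hc
      have key : ∀ u, i * F.D ≤ u → u ≤ k → (tm T u, y) ∉ vis Z R := by
        intro u hu
        induction u, hu using Nat.le_induction with
        | base => exact fun _ a => hc.1 a h1
        | succ u hu ih =>
          intro h3 a
          refine hc.2 u (mem_Ico.2 ⟨hu, by have := (mem_Ico.1 hk).2; omega⟩) (hp.c1v fun e => ?_)
            (hd _ h1)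
          exact ih (by omega) (e.2 (tm_succ (T := T) u ▸ a))
      exact key k (mem_Ico.1 hk).1 le_rfl h2
    · refine le_trans (add_le_add (a1 _) card_biUnion_le) ?_
      rw [← sum_Ico_consecutive _ (Nat.mul_le_mul_right F.D (Nat.le_succ i))
        (Nat.mul_le_mul_right F.D (by omega : i + 1 ≤ i + 2))]
      have b1 := a2 i
      have b2 := a2 (i + 1)
      unfold chg cnt at b1 b2
      exact le_trans (add_le_add le_rfl (add_le_add b1 b2)) (by omega)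

/-- no cluster of points: no cluster of sites. -/
theorem noCl {r r' : ℕ} {R' : Finset (V L n T)} (h : ¬ Cl F r R c i) (hR : R' ⊆ R)
    (hr : tdist c x + r' ≤ r) : G1.NoCl R' F.D F.A r' x i := by
  classical
  intro k hk z hz
  by_contra hc
  refine h ⟨k, hk, z, by have := tdist_triangle c x z; omega, le_trans (not_le.1 hc) ?_⟩
  refine le_trans (card_le_card fun y hy => ?_) (card_image_le (f := Prod.fst))
  obtain ⟨h1, a, h2⟩ := mem_filter.1 hy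
  exact mem_image.2 ⟨(y, a), mem_filter.2 ⟨mem_univ _, hR h2, Geo.mem_bl.1 h1⟩, rfl⟩

open Classical in
/-- many windows of a unit are cluster free. -/
theorem Gu.free (h : Gu F t E Z c i) : F.l ≤ 2 * t * F.l1 +
    ((Ico i (i + F.l)).filter fun i' => ¬ Cl F (F.rr (2 * t)) (vis Z E.1) c i').card := by
  have := card_filter_add_card_filter_not (s := Ico i (i + F.l))
    (Cl F (F.rr (2 * t)) (vis Z E.1) c)
  have := h.c3
  rw [Nat.card_Ico] at *
  omega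

/-- **leaf J3 of G1.** -/
theorem G0.leaf3 (h : G0 F t E Z c) (ht : 2 * t * F.l1 < F.l) (hR : R ⊆ E.1) :
    G1.Leaf3 (vis Z R) F.D F.l F.A F.r3 c := fun i => by
  classical
  obtain ⟨i', hi⟩ := card_pos.1 (by have := (h i).free; omega : 0 < ((Ico i (i + F.l)).filter
    fun i' => ¬ Cl F (F.rr (2 * t)) (vis Z E.1) c i').card)
  exact ⟨i', (mem_filter.1 hi).1, noCl (mem_filter.1 hi).2 (vis_mono hR Subset.rfl)
    (by rw [tdist_self, zero_add]; exact F.le_rr _)⟩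

/-- `Geom` for any junk family that contains the bad base cells. -/
theorem geom_of {P : G1.Scales} {U : ℕ → Finset (Tor 3 L)} (hP : P.Ok L)
    (hc : ∀ m, 1 ≤ m → m < P.mt → G1.CovIn P U m) (hU : ∀ c ∉ U 1, G0 F t E Z c)
    (hT : T = B * F.D) (hl : 1 ≤ F.l) (hp : Rp ex ey p R X) (hR : R ⊆ E.1) (hX : X ⊆ E.2 ∪ X0)
    (h0 : X0.card ≤ x0) (hm : 2 * t * F.n1 ≤ P.a 0) (hj : P.a 0 + 2 * (2 * t * F.j1 + x0) ≤ j)
    (hr : 8 * P.η 0 ≤ F.r0) (hA : 11 * P.ρ 0 + 6 ≤ F.A ∧ F.A ≤ P.η 0) :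
    G1.Geom ex ey p (vis Z R) P U F.D j F.A :=
  ⟨hP, hc, fun c h _ hx => (hU c h).leaf hT hl hp hR hX h0 hm hj (by omega), hA⟩

theorem data3_of {P : G1.Scales} {U : ℕ → Finset (Tor 3 L)} {E0 w : ℕ} {κ : ℝ}
    (hD : F.D = w * E0) (pe : G1.Pers ex ey p0 b0 E0 w κ) (hU : ∀ c ∉ U 1, G0 F t E Z c)
    (ht : 2 * t * F.l1 < F.l) (hR : R ⊆ E.1)
    (h1 : (F.l + 1) * (j * (2 * F.A + 1)) + F.A < P.η 0)
    (h2 : (F.l + 1) * (j * (2 * F.A + 1)) + F.A ≤ F.r3) :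
    G1.Data3 ex ey p0 b0 (vis Z R) E0 w κ P U j F.A F.l F.r3 :=
  ⟨pe, fun c h => hD ▸ (hU c h).leaf3 ht hR, h1, h2⟩

/-! ### the junk sets of a rung system -/

section junk
variable {α κ : Type} [SemilatticeSup α] [Preorder κ] (S : Rg.Sys (Tor 3 L) α κ)

open Classical in
/-- G1 level `m + 1` = cells of scale `m` with rung `> τ`. -/
noncomputable def jk (d : ℕ) (E : α) (Z : κ) (τ : ℕ) : ℕ → Finset (Tor 3 L)
  | 0 => ∅
  | m + 1 => univ.filter fun y => ¬ S.Good d E Z m τ y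

/-- the scales of G1. -/
def scl (τ mt a0 : ℕ) (η : ℕ → ℕ) : G1.Scales where
  mt := mt
  a m := if m = 0 then a0 else (τ + 1) * S.a
  σ m := if m = 0 then 0 else S.rad (m - 1) τ
  η := η

variable {S} {d τ m : ℕ} {E : α} {Z : κ} {y : Tor 3 L}

lemma mem_jk : y ∈ jk S d E Z τ (m + 1) ↔ ¬ S.Good d E Z m τ y := by simp [jk]

lemma not_mem_jk : y ∉ jk S d E Z τ (m + 1) ↔ S.Good d E Z m τ y := by simp [jk]

theorem covAt {mt a0 : ℕ} {η : ℕ → ℕ} (hd : ∀ x y, S.d x y = tdist x y)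
    (hτ : S.k0 + S.oc + d ≤ τ) (hη : 4 * η (m + 1) + 3 * τ * S.H m ≤ S.ρ (m + 1)) :
    G1.CovAt (scl S τ mt a0 η) (jk S d E Z τ) (m + 1) := fun c hc => by
  have h := not_mem_jk.1 hc
  refine ⟨_, h.card_cov, fun y hy h1 => ?_⟩
  have h4 : S.In m τ c y := by
    unfold Rg.Sys.In; rw [hd]; exact le_trans (Nat.add_le_add_right h1 _) hη
  obtain ⟨f, h2, h3⟩ := h.jk_cov h4 fun k => mem_jk.1 hy (k.up hτ)
  exact ⟨f, h2, hd _ _ ▸ h3⟩

theorem covIn {mt a0 : ℕ} {η : ℕ → ℕ} (hd : ∀ x y, S.d x y = tdist x y)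
    (hτ : S.k0 + S.oc + d ≤ τ) (hη : ∀ m, 4 * η (m + 1) + 3 * τ * S.H m ≤ S.ρ (m + 1)) (m : ℕ)
    (hm : 1 ≤ m) : G1.CovIn (scl S τ mt a0 η) (jk S d E Z τ) m := by
  obtain ⟨m, rfl⟩ : ∃ k, m = k + 1 := ⟨m - 1, by omega⟩
  exact fun c _ hc => covAt hd hτ (hη m) c hc

end junk

/-! ### slow paths -/

section slow
variable {P : Num} {z0 : Tor 3 L} {d τ m : ℕ} {Al : Fin T → Prop} {W : V L n T → Prop}

/-- **one window**: allowed paths on sites off `Z` (red points allowed) in good cells are slow. -/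
theorem slow_win (hnn : ∀ s, tdist (ex s).1 (ey s).1 ≤ 1) (hl : 1 ≤ P.l)
    (hτ : P.k0 + 27 + d ≤ τ)
    (hρ : ∀ m, (τ + 1) * P.a * (2 * P.rad m τ + 1) + 3 * τ * P.H m ≤ P.ρ (m + 1))
    (hJ : 2 * τ * P.j1 ≤ P.r0)
    (hAl : ∀ r y, Al r → tdist (ex r).1 (ey r).1 ≠ 0 → (y = ex r ∨ y = ey r) → W (r, y) →
      (r, y) ∈ E.2)
    (hW : ∀ u, W u → ¬ dead Z u.2.1 ∧ (sys n T P z0).Good d E Z m τ u.2.1) (i : ℕ) :
    A.Slow ex ey (fun x y => tdist x.1 y.1)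
      (fun r => Al r ∧ r.val ∈ Ico (i * P.D) ((i + 1) * P.D)) W
      (2 * τ * P.j1 + A.esc (sys n T P z0) τ m) := by
  classical
  refine A.slow_of_good' (S := sys n T P z0) Prod.fst hnn hτ hρ (fun s t γ hs ht hp hG => ?_)
    fun u hu => (hW u hu).2
  refine A.path_le_count (d := fun x y => tdist x.1 y.1)
    ⟨fun _ => tdist_self _, fun _ _ => tdist_comm _ _, fun _ _ _ => tdist_triangle _ _ _, hnn⟩
    hs ht hp (I := univ.filter fun r : Fin T => r.val ∈ Ico (i * P.D) ((i + 1) * P.D) ∧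
      1 ≤ cnt (vis Z E.2) r (γ s).1 P.r0) (le_trans ?_ (G0.chg_le hG hl i))
    fun r y h1 h2 h3 h4 h5 => mem_filter.2 ⟨mem_univ _, h1.2, card_pos.2 ⟨y, mem_filter.2
      ⟨mem_univ _, ?_, h5.trans hJ⟩⟩⟩
  · rw [← card_image_of_injective _ Fin.val_injective]
    refine le_trans (card_le_card (t := (Ico (i * P.D) ((i + 1) * P.D)).filter fun k =>
      1 ≤ cnt (vis Z E.2) k (γ s).1 P.r0) fun k hk => ?_) ?_
    · obtain ⟨r, hr, rfl⟩ := mem_image.1 hk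
      exact mem_filter.2 (mem_filter.1 hr).2
    · rw [card_filter]
      exact sum_le_sum fun k _ => by split_ifs with h; exacts [h, Nat.zero_le _]
  · rw [tm_fin]
    exact mem_vis.2 ⟨hAl r y h1.1 h2 h3 h4, (hW _ h4).1⟩

/-- from the windows to the period. -/
theorem slow_all {Λ : Type} [Fintype Λ] [DecidableEq Λ] {ex ey : Fin T → Λ} {dd : Λ → Λ → ℕ}
    (hd : A.Met ex ey dd) {W : Fin T × Λ → Prop} {D v : ℕ} (hT : T = B * D)
    (h : ∀ i, A.Slow ex ey dd (fun r => Al r ∧ r.val ∈ Ico (i * D) ((i + 1) * D)) W v) :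
    A.Slow ex ey dd Al W (B * v) := by
  intro s t γ hs ht hp
  have one : ∀ i s' t', s ≤ s' → s' ≤ t' → t' ≤ t → i * D ≤ s' → t' ≤ (i + 1) * D →
      dd (γ s') (γ t') ≤ v := fun i s' t' a1 a2 a3 a4 a5 =>
    h i s' t' γ a2 (a3.trans ht) fun r b1 b2 => ⟨(hp r (by omega) (by omega)).1,
      (hp r (by omega) (by omega)).2.imp_right fun k => ⟨⟨k.1, mem_Ico.2 ⟨by omega, by omega⟩⟩, k.2⟩⟩
  have key : ∀ i t', s ≤ t' → t' ≤ t → t' ≤ i * D → dd (γ s) (γ t') ≤ i * v := by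
    intro i
    induction i with
    | zero => intro t' a b c; rw [show t' = s by omega, hd.1]; omega
    | succ i ih =>
      intro t' a b c
      rw [add_mul, one_mul]
      rcases le_total t' (i * D) with k | k
      · exact (ih t' a b k).trans (by omega)
      rcases le_total s (i * D) with k' | k'
      · exact (hd.2.2.1 _ (γ (i * D)) _).trans (add_le_add (ih _ k' (by omega) le_rfl)
          (one i _ _ k' k b le_rfl c))
      · exact (one i _ _ le_rfl a b k' c).trans (by omega)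
  exact key B t hs le_rfl (hT ▸ ht)

end slow

/-! ### the instance for the chain -/

/-- the rung seen from the loops. -/
noncomputable def ins (ex ey : Fin T → Tor 3 L × Fin n) (P : Num) (z0 : Tor 3 L) :
    M.Ins T (Tor 3 L × Fin n) (Tor 3 L) (Ev L n T) (Finset (Tor 3 L)) where
  S := sys n T P z0
  π := Prod.fst
  pa := ev ex ey
  kz := kil
  pa_union := ev_union
  kz_mono _ _ h := kil_mono h

/-- **`Dlv.slow`**, off the balls `(Fc, Rc)`, per window. -/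
theorem sl_win {P : Num} {z0 : Tor 3 L} (G : M.Bs T (Tor 3 L × Fin n))
    (hnn : ∀ s, tdist (G.ex s).1 (G.ey s).1 ≤ 1) (hl : 1 ≤ P.l) {τ m t Rc : ℕ}
    (hτ : P.k0 + 27 ≤ τ) (ht : t ≤ τ)
    (hρ : ∀ m, (τ + 1) * P.a * (2 * P.rad m τ + 1) + 3 * τ * P.H m ≤ P.ρ (m + 1))
    (hJ : 2 * τ * P.j1 ≤ P.r0) {s : M.Cfg T (Tor 3 L × Fin n)} {Fc : Finset (Tor 3 L)}
    (h : (ins G.ex G.ey P z0).Cl m t Fc Rc s) (i : ℕ) :
    A.Slow G.ex G.ey (fun x y => tdist x.1 y.1)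
      (fun r => (cn s.e r = true ∨ tdist (G.ex r).1 (G.ey r).1 = 0) ∧
        r.val ∈ Ico (i * P.D) ((i + 1) * P.D))
      (fun u => u.2.1 ∉ kil s.Z ∧ ∀ f ∈ Fc, Rc < tdist f u.2.1)
      (2 * τ * P.j1 + A.esc (sys n T P z0) τ m) :=
  slow_win (E := ev G.ex G.ey s.e) (d := 0) hnn hl hτ hρ hJ (fun r y h1 h2 h3 _ => mem_act.2
    ⟨by simpa [cn] using h1.resolve_right h2, fun e => h2 (by rw [e, tdist_self]), h3⟩)
    (fun u hu => ⟨fun k => hu.1 k.mem, (h _ hu.2).up ht⟩) i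

/-- **`Dlv.slow`.** -/
theorem sl_of_cl {P : Num} {z0 : Tor 3 L} (G : M.Bs T (Tor 3 L × Fin n)) (hG : G.Ok)
    (hd : G.d = fun x y => tdist x.1 y.1) (hT : T = B * P.D) (hl : 1 ≤ P.l) {τ m t v : ℕ}
    (hτ : P.k0 + 27 ≤ τ) (ht : t ≤ τ)
    (hρ : ∀ m, (τ + 1) * P.a * (2 * P.rad m τ + 1) + 3 * τ * P.H m ≤ P.ρ (m + 1))
    (hJ : 2 * τ * P.j1 ≤ P.r0) (hv : B * (2 * τ * P.j1 + A.esc (sys n T P z0) τ m) ≤ v)
    {s : M.Cfg T (Tor 3 L × Fin n)} (h : (ins G.ex G.ey P z0).Cl m t ∅ 0 s) : G.Sl v s := by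
  have hm := hG.d
  unfold M.Bs.Sl
  rw [hd] at hm ⊢
  intro a b γ h1 h2 h3
  exact (slow_all hm hT (sl_win G hm.2.2.2 hl hτ ht hρ hJ h) a b γ h1 h2 fun r k1 k2 =>
    ⟨⟨fun k => (h3 r k1 k2).1 (mem_of_kil k), by simp⟩, (h3 r k1 k2).2⟩).trans hv

end Crest.Agent.N337.I
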