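import Crest.Agent.N337.I.Geom

/-!
# Row 337 (helper79): the sharp speed of pins (`lw` instead of `loc`)
-/

set_option autoImplicit false
set_option linter.unusedSectionVars false

namespace Crest.Agent.N337.I

open Finset Equiv Crest.Agent.N337.Free Crest.Agent.N337.KV Crest.Agent.N337.Gas
  Crest.Agent.N337.Rep
open Crest.Agent.N337.A (Path Slow ivt_path)

section abs
variable {X α κ : Type} [Fintype X] [SemilatticeSup α] [Preorder κ] {S : Rg.Sys X α κ}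
  {dd : ℕ} {E : α} {Z : κ}

/-- distance needed to descend from scale `m` to a good base cell. -/
def lw (S : Rg.Sys X α κ) (τ : ℕ) : ℕ → ℕ
  | 0 => 0
  | m + 1 => (τ + 1) * S.a * (2 * S.rad m τ + 1) + lw S τ m

/-- one step down: a long lattice path from a good cell meets a good child. -/
theorem exists_child {τ m s u : ℕ} (hτ : S.k0 + S.oc + dd ≤ τ)
    (h3 : (τ + 1) * S.a * (2 * S.rad m τ + 1) + 3 * τ * S.H m ≤ S.ρ (m + 1)) {γ : ℕ → X}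
    (hs : s ≤ u) (hγ : ∀ r, s ≤ r → r < u → S.d (γ r) (γ (r + 1)) ≤ 1)
    (h1 : S.Good dd E Z (m + 1) τ (γ s))
    (h2 : (τ + 1) * S.a * (2 * S.rad m τ + 1) ≤ S.d (γ s) (γ u)) :
    ∃ r, s ≤ r ∧ r ≤ u ∧ S.Good dd E Z m τ (γ r) ∧
      S.d (γ s) (γ r) ≤ (τ + 1) * S.a * (2 * S.rad m τ + 1) := by
  classical
  have h4 := h1.card_cov
  have h5 : ∀ i : Fin ((τ + 1) * S.a + 1), ∃ r, s ≤ r ∧ r ≤ u ∧
      S.d (γ s) (γ r) = i * (2 * S.rad m τ + 1) := fun i =>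
    ivt_path hs (fun r a b => (S.d_tri _ (γ r) _).trans (Nat.add_le_add_left (hγ r a b) _))
      (by rw [S.d_self]; omega)
      ((Nat.mul_le_mul_right _ (Nat.le_of_lt_succ i.2)).trans h2)
  choose r r1 r2 r3 using h5
  have h6 : ∃ i, S.Off (S.cov dd E Z m (γ s)) (S.rad m τ) (γ (r i)) := by
    by_contra h
    simp only [Rg.Sys.Off, not_exists, not_forall, not_lt] at h
    choose f f1 f2 using h
    have := card_le_card_of_injOn (s := univ) (t := S.cov dd E Z m (γ s)) f (fun i _ => f1 i)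
      fun i _ j _ e => by
        have a1 := f2 i
        have a2 := f2 j
        have a3 := S.d_tri (γ s) (γ (r i)) (γ (r j))
        have a4 := S.d_tri (γ s) (γ (r j)) (γ (r i))
        have a5 := S.d_tri (γ (r i)) (f j) (γ (r j))
        have a6 := S.d_comm (γ (r i)) (γ (r j))
        have a7 := S.d_comm (γ (r i)) (f j)
        rw [e] at a1
        rw [r3, r3] at a3 a4
        refine Fin.ext (le_antisymm ?_ ?_) <;> by_contra h <;> push Not at h <;>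
          nlinarith [Nat.mul_le_mul_right (2 * S.rad m τ + 1) (Nat.succ_le_of_lt h)]
    rw [card_univ, Fintype.card_fin] at this
    omega
  obtain ⟨i, hi⟩ := h6
  have h7 : S.d (γ s) (γ (r i)) ≤ (τ + 1) * S.a * (2 * S.rad m τ + 1) :=
    (r3 i).trans_le (Nat.mul_le_mul_right _ (Nat.le_of_lt_succ i.2))
  exact ⟨r i, r1 i, r2 i, (h1.child (by unfold Rg.Sys.In; omega) hi).up hτ, h7⟩

theorem exists_base {τ J : ℕ} (hτ : S.k0 + S.oc + dd ≤ τ)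
    (hρ : ∀ m, (τ + 1) * S.a * (2 * S.rad m τ + 1) + 3 * τ * S.H m ≤ S.ρ (m + 1)) {γ : ℕ → X}
    {u : ℕ} (m : ℕ) : ∀ s ≤ u, (∀ r, s ≤ r → r < u → S.d (γ r) (γ (r + 1)) ≤ 1) →
      S.Good dd E Z m τ (γ s) → J + lw S τ m < S.d (γ s) (γ u) →
      ∃ r, s ≤ r ∧ r ≤ u ∧ S.G0 τ E Z (γ r) ∧ J < S.d (γ r) (γ u) := by
  induction m with
  | zero => exact fun s hs _ h1 h2 => ⟨s, le_rfl, hs, h1, h2⟩
  | succ m ih =>
    intro s hs hγ h1 h2
    simp only [lw] at h2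
    obtain ⟨r, r1, r2, r3, r4⟩ := exists_child hτ (hρ m) hs hγ h1 (by omega)
    have h8 := S.d_tri (γ s) (γ r) (γ u)
    obtain ⟨r', a, b, c⟩ := ih r r2 (fun r' a b => hγ r' (r1.trans a) b) r3 (by omega)
    exact ⟨r', r1.trans a, b, c⟩

variable {Λ : Type} [Fintype Λ] [DecidableEq Λ] {T : ℕ} [NeZero T] {ex ey : Fin T → Λ}

theorem slow_of_good {τ J m : ℕ} (π : Λ → X) {Al : Fin T → Prop} {W : Fin T × Λ → Prop}
    (hd : ∀ s, S.d (π (ex s)) (π (ey s)) ≤ 1) (hτ : S.k0 + S.oc + dd ≤ τ)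
    (hρ : ∀ m, (τ + 1) * S.a * (2 * S.rad m τ + 1) + 3 * τ * S.H m ≤ S.ρ (m + 1))
    (hJ : ∀ s t γ, s ≤ t → t ≤ T → Path ex ey Al W s t γ → S.G0 τ E Z (π (γ s)) →
      S.d (π (γ s)) (π (γ t)) ≤ J)
    (hG : ∀ u, W u → S.Good dd E Z m τ (π u.2)) :
    Slow ex ey (fun x y => S.d (π x) (π y)) Al W (J + lw S τ m) := by
  intro s t γ hs ht hp
  by_contra h
  beta_reduce at h
  have hst : s < t := hs.lt_of_ne fun e => h (by rw [e, S.d_self]; omega)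
  obtain ⟨r, a, b, c, e⟩ := exists_base (γ := fun r => π (γ r)) (J := J) hτ hρ m s hs
    (fun r a b => by
      rcases (hp ⟨r, b.trans_le ht⟩ a b).2 with e | ⟨-, e⟩
      · rw [show γ (r + 1) = γ r from e, S.d_self]; omega
      · rw [show γ (r + 1) = _ from e]
        refine swap_apply_def (ex _) (ey _) _ ▸ ?_
        split_ifs with h1 h2
        · rw [h1]; exact hd _
        · rw [h2, S.d_comm]; exact hd _
        · rw [S.d_self]; omega)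
    (hG _ (hp ⟨s, hst.trans_le ht⟩ le_rfl hst).1) (by omega)
  exact absurd (hJ r t γ b ht (hp.sub a le_rfl) c) (not_le.2 e)

end abs

variable {L n T : ℕ} [NeZero L] [NeZero T] {ex ey : Fin T → Tor 3 L × Fin n} {E : Ev L n T}
  {Z : Finset (Tor 3 L)} {B : ℕ}

/-- `lw` of the concrete rung. -/
def Num.lw (P : Num) (τ : ℕ) : ℕ → ℕ
  | 0 => 0
  | m + 1 => (τ + 1) * P.a * (2 * P.rad m τ + 1) + P.lw τ m

lemma lw_sys (P : Num) (z0 : Tor 3 L) (τ m : ℕ) : lw (sys n T P z0) τ m = P.lw τ m := by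
  induction m with
  | zero => rfl
  | succ m ih => simp only [lw, Num.lw, ih]; rfl

/-- **one window**, sharp speed. -/
theorem slow_win' {P : Num} {z0 : Tor 3 L} {d τ m : ℕ} {Al : Fin T → Prop} {W : V L n T → Prop}
    (hnn : ∀ s, tdist (ex s).1 (ey s).1 ≤ 1) (hl : 1 ≤ P.l) (hτ : P.k0 + 27 + d ≤ τ)
    (hρ : ∀ m, (τ + 1) * P.a * (2 * P.rad m τ + 1) + 3 * τ * P.H m ≤ P.ρ (m + 1))
    (hJ : 2 * τ * P.j1 ≤ P.r0)
    (hAl : ∀ r y, Al r → tdist (ex r).1 (ey r).1 ≠ 0 → (y = ex r ∨ y = ey r) → W (r, y) →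
      (r, y) ∈ E.2)
    (hW : ∀ u, W u → ¬ dead Z u.2.1 ∧ (sys n T P z0).Good d E Z m τ u.2.1) (i : ℕ) :
    A.Slow ex ey (fun x y => tdist x.1 y.1)
      (fun r => Al r ∧ r.val ∈ Ico (i * P.D) ((i + 1) * P.D)) W (2 * τ * P.j1 + P.lw τ m) := by
  classical
  rw [← lw_sys (n := n) (T := T) P z0]
  refine slow_of_good (S := sys n T P z0) Prod.fst hnn hτ hρ (fun s t γ hs ht hp hG => ?_)
    fun u hu => (hW u hu).2
  refine A.path_le_count (d := fun x y => tdist x.1 y.1)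
    ⟨fun _ => tdist_self _, fun _ _ => tdist_comm _ _, fun _ _ _ => tdist_triangle _ _ _, hnn⟩
    hs ht hp (I := univ.filter fun r : Fin T => r.val ∈ Ico (i * P.D) ((i + 1) * P.D) ∧
      1 ≤ cnt (vis Z E.2) r (γ s).1 P.r0) (le_trans ?_ (G0.chg_le hG hl i))
    fun r y h1 h2 h3 h4 h5 => mem_filter.2 ⟨mem_univ _, h1.2, card_pos.2 ⟨y, mem_filter.2
      ⟨mem_univ _, ?_, h5.trans hJ⟩⟩⟩
  · rw [← card_image_of_injective _ Fin.val_injective]
    refine le_trans (card_le_card (t := (Ico (i * P.D) ((i + 1) * P.D)).filter fun k =>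
      1 ≤ cnt (vis Z E.2) k (γ s).1 P.r0) fun k hk => ?_) ?_
    · obtain ⟨r, hr, rfl⟩ := mem_image.1 hk
      exact mem_filter.2 (mem_filter.1 hr).2
    · rw [card_filter]
      exact sum_le_sum fun k _ => by split_ifs with h; exacts [h, Nat.zero_le _]
  · rw [tm_fin]
    exact mem_vis.2 ⟨hAl r y h1.1 h2 h3 h4, (hW _ h4).1⟩

/-- **`Dlv.slow`**, off the balls `(Fc, Rc)`, per window, sharp speed. -/
theorem sl_win' {P : Num} {z0 : Tor 3 L} (G : M.Bs T (Tor 3 L × Fin n))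
    (hnn : ∀ s, tdist (G.ex s).1 (G.ey s).1 ≤ 1) (hl : 1 ≤ P.l) {τ m t Rc : ℕ}
    (hτ : P.k0 + 27 ≤ τ) (ht : t ≤ τ)
    (hρ : ∀ m, (τ + 1) * P.a * (2 * P.rad m τ + 1) + 3 * τ * P.H m ≤ P.ρ (m + 1))
    (hJ : 2 * τ * P.j1 ≤ P.r0) {s : M.Cfg T (Tor 3 L × Fin n)} {Fc : Finset (Tor 3 L)}
    (h : (ins G.ex G.ey P z0).Cl m t Fc Rc s) (i : ℕ) :
    A.Slow G.ex G.ey (fun x y => tdist x.1 y.1)
      (fun r => (cn s.e r = true ∨ tdist (G.ex r).1 (G.ey r).1 = 0) ∧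
        r.val ∈ Ico (i * P.D) ((i + 1) * P.D))
      (fun u => u.2.1 ∉ kil s.Z ∧ ∀ f ∈ Fc, Rc < tdist f u.2.1) (2 * τ * P.j1 + P.lw τ m) :=
  slow_win' (E := ev G.ex G.ey s.e) (d := 0) hnn hl hτ hρ hJ (fun r y h1 h2 h3 _ => mem_act.2
    ⟨by simpa [cn] using h1.resolve_right h2, fun e => h2 (by rw [e, tdist_self]), h3⟩)
    (fun u hu => ⟨fun k => hu.1 k.mem, (h _ hu.2).up ht⟩) i

/-- **`Dlv.slow`**, sharp speed. -/
theorem sl_of_cl' {P : Num} {z0 : Tor 3 L} (G : M.Bs T (Tor 3 L × Fin n)) (hG : G.Ok)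
    (hd : G.d = fun x y => tdist x.1 y.1) (hT : T = B * P.D) (hl : 1 ≤ P.l) {τ m t v : ℕ}
    (hτ : P.k0 + 27 ≤ τ) (ht : t ≤ τ)
    (hρ : ∀ m, (τ + 1) * P.a * (2 * P.rad m τ + 1) + 3 * τ * P.H m ≤ P.ρ (m + 1))
    (hJ : 2 * τ * P.j1 ≤ P.r0) (hv : B * (2 * τ * P.j1 + P.lw τ m) ≤ v)
    {s : M.Cfg T (Tor 3 L × Fin n)} (h : (ins G.ex G.ey P z0).Cl m t ∅ 0 s) : G.Sl v s := by
  have hm := hG.d
  unfold M.Bs.Sl
  rw [hd] at hm ⊢
  intro a b γ h1 h2 h3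
  exact (slow_all hm hT (sl_win' G hm.2.2.2 hl hτ ht hρ hJ h) a b γ h1 h2 fun r k1 k2 =>
    ⟨⟨fun k => (h3 r k1 k2).1 (mem_of_kil k), by simp⟩, (h3 r k1 k2).2⟩).trans hv

end Crest.Agent.N337.I
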